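import Vale.Agent.P144D.I.Defs
import Vale.Agent.P144D.Dom.A

/-!
Piecewise constant boundary conditions: from the plane to the lattice.
-/

namespace Vale.Agent.P144Z

open B6a

theorem pwStmt : PwStmt := by
  intro D P ⟨α, α0, h⟩
  refine ⟨α, α0, fun κ hκ => ?_⟩
  obtain ⟨r₀, r0, h⟩ := h κ hκ
  refine ⟨r₀ / 3, by positivity, fun a ha Λ hΛ r hr z ⟨v₀, hv₀, hz⟩ => ?_⟩
  have h2 : ∀ x, x ∈ Λ ↔ pt a x ∈ D := hΛ
  have h3 : ∀ v, zd v 0 ≤ r → pt a (z + v) ∈ Metric.ball (pt a z) r₀ := fun v hv => by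
    have h4 : (zd v 0 : ℝ) ≤ r := by exact_mod_cast hv
    rw [pt_add, mem_ball_iff_norm, add_sub_cancel_left]
    nlinarith [le_zd ha v]
  have h4 : ∀ v, zd v z ≤ r → pt a v ∈ Metric.ball (pt a z) r₀ := fun v hv => by
    have := h3 (v - z) (by simpa [zd] using hv)
    rwa [add_sub_cancel] at this
  have hb : ∀ v, bcOf P a v = true ↔ pt a v ∈ P := fun v => by
    simp only [bcOf, decide_eq_true_eq]
    rfl
  rcases h (pt a z) ⟨_, (h2 _).1 hv₀, h4 _ hz⟩ with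
    h | h | ⟨S, S', ν, τ, e1, e2, e3, e4, c1, c2, e5, e6⟩
  · exact Or.inl fun v hv hn => (hb v).2 (h ⟨h4 v hv, fun h5 => hn ((h2 v).2 h5)⟩)
  · refine Or.inr (Or.inl fun v hv hn => ?_)
    rw [← Bool.not_eq_true, hb]
    exact h ⟨h4 v hv, fun h5 => hn ((h2 v).2 h5)⟩
  · refine Or.inr (Or.inr ⟨_, _, ν, τ, e1, e2, e3, e4, epi c1 ha z, epi c2 ha z, fun v hv => ?_⟩)
    have h5 := Set.ext_iff.1 e5 (pt a (z + v))
    have h6 := Set.ext_iff.1 e6 (pt a (z + v))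
    simp only [Set.mem_inter_iff, Set.mem_sdiff, h3 v hv, and_true] at h5 h6
    refine ⟨(h2 _).trans h5, fun hn => ?_⟩
    rw [h2] at hn
    rw [hb]
    simpa [hn] using h6

end Vale.Agent.P144Z
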