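import Vale.Agent.P144D.I.Stmt
import Vale.Agent.P144D.Dom.A

/-!
Piecewise constant boundary conditions: examples.
-/

namespace Vale.Agent.P144Z

open Filter Topology Metric B6a

namespace IPw

/-- The gradient of a linear form. -/
noncomputable def gr (L : ℂ →L[ℝ] ℝ) : ℂ := L 1 + L Complex.I * Complex.I

lemma gr_eq (L : ℂ →L[ℝ] ℝ) (v : ℂ) : L v = v.re * (gr L).re + v.im * (gr L).im := by
  conv_lhs => rw [show v = v.re • (1 : ℂ) + v.im • Complex.I by simp, map_add, map_smul, map_smul]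
  simp [gr]

lemma gr_cont : Continuous gr := by
  unfold gr
  fun_prop

lemma gr_lin {L L' : ℂ →L[ℝ] ℝ} {s t : ℝ} (h : s • gr L + t • gr L' = 0) : s • L + t • L' = 0 := by
  have h1 := congrArg Complex.re h
  have h2 := congrArg Complex.im h
  simp only [Complex.add_re, Complex.add_im, Complex.smul_re, Complex.smul_im, smul_eq_mul,
    Complex.zero_re, Complex.zero_im] at h1 h2
  refine ContinuousLinearMap.ext fun v => ?_
  simp only [add_apply, smul_apply, smul_eq_mul, zero_apply]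
  rw [gr_eq L, gr_eq L']
  linear_combination v.re * h1 + v.im * h2

/-- The unit normal of a linear form. -/
noncomputable def nr (L : ℂ →L[ℝ] ℝ) : ℂ := ‖gr L‖⁻¹ • gr L

lemma nr_cont {F : ℂ → ℝ} {z : ℂ} (hF : ContDiffAt ℝ 1 F z) (h0 : gr (fderiv ℝ F z) ≠ 0) :
    ContinuousAt (fun w => nr (fderiv ℝ F w)) z := by
  have h1 : ContinuousAt (fun w => gr (fderiv ℝ F w)) z :=
    gr_cont.continuousAt.comp (hF.continuousAt_fderiv one_ne_zero)
  exact (h1.norm.inv₀ (norm_ne_zero_iff.2 h0)).smul h1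

/-- Near a regular point, the region where `F` is positive is above a graph of small slope. -/
lemma cone_loc {F : ℂ → ℝ} {z : ℂ} (hF : ContDiffAt ℝ 1 F z) (h0 : gr (fderiv ℝ F z) ≠ 0) :
    ∃ U ∈ 𝓝 z, ∀ κ > 0, ∃ r > 0, ∀ w ∈ U, ‖nr (fderiv ℝ F w)‖ = 1 ∧
      ∃ S, Cone S (nr (fderiv ℝ F w)) κ ∧ {u | 0 < F u} ∩ Metric.ball w r = S ∩ Metric.ball w r := by
  set m := ‖gr (fderiv ℝ F z)‖ / 2 with hm
  have m0 : 0 < m := half_pos (norm_pos_iff.2 h0)
  have h1 : ContinuousAt (fun w => ‖gr (fderiv ℝ F w)‖) z :=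
    (gr_cont.continuousAt.comp (hF.continuousAt_fderiv one_ne_zero)).norm
  obtain ⟨ε, ε0, hε⟩ := nhds_basis_closedBall.eventually_iff.1 ((hF.eventually (by simp)).and
    (h1.eventually (lt_mem_nhds (show m < ‖gr (fderiv ℝ F z)‖ by linarith))))
  have cD : ContinuousOn (fderiv ℝ F) (closedBall z ε) := fun y hy =>
    ((hε hy).1.continuousAt_fderiv one_ne_zero).continuousWithinAt
  refine ⟨Metric.ball z (ε / 2), ball_mem_nhds z (half_pos ε0), fun κ hκ => ?_⟩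
  obtain ⟨δ, δ0, hδ⟩ := uniformContinuousOn_iff.1
    ((isCompact_closedBall z ε).uniformContinuousOn_of_continuous cD) (κ * m) (by positivity)
  refine ⟨min δ (ε / 2), by positivity, fun p hp => ?_⟩
  have hin : ∀ x ∈ Metric.ball p (min δ (ε / 2)), x ∈ closedBall z ε := fun x hx => by
    have := (mem_ball.1 hx).trans_le (min_le_right _ _)
    rw [mem_closedBall]
    linarith [dist_triangle x p z, mem_ball.1 hp]
  have hp' := hin p (mem_ball_self (by positivity))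
  have g0 := m0.trans (hε hp').2
  refine ⟨norm_smul_inv_norm (norm_pos_iff.1 g0), ?_⟩
  obtain ⟨S, h3, h4⟩ := exists_cone (D := {u | 0 < F u}) (B := Metric.ball p (min δ (ε / 2)))
    (ν := nr (fderiv ℝ F p)) hκ fun u hu h1 v h2 h3 => by
      have h4 := (convex_ball p (min δ (ε / 2))).norm_image_sub_le_of_norm_fderiv_le'
        (φ := fderiv ℝ F p) (C := κ * m)
        (fun x hx => (hε (hin x hx)).1.differentiableAt one_ne_zero)
        (fun x hx => by
          rw [← dist_eq_norm]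
          exact (hδ x (hin x hx) p hp' ((mem_ball.1 hx).trans_le (min_le_left _ _))).le) h1 h3
      rw [add_sub_cancel_left, gr_eq, Real.norm_eq_abs] at h4
      simp only [nr, Complex.smul_re, Complex.smul_im, smul_eq_mul] at h2
      have h5 : κ * ‖v‖ * ‖gr (fderiv ℝ F p)‖ ≤
          v.re * (gr (fderiv ℝ F p)).re + v.im * (gr (fderiv ℝ F p)).im := by
        rw [← le_div_iff₀ g0]
        exact h2.trans_eq (by ring)
      have h6 := mul_le_mul_of_nonneg_left (hε hp').2.le (mul_nonneg hκ.le (norm_nonneg v))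
      have h7 : 0 < F u := hu
      change 0 < F (u + v)
      linarith [(abs_le.1 h4).1]
  exact ⟨S, h3, by rwa [Set.inter_self] at h4⟩

/-- The alternative of `PW` in one ball. -/
def At (D P : Set ℂ) (α κ r : ℝ) (z : ℂ) : Prop :=
  (D ∩ Metric.ball z r).Nonempty →
    Metric.ball z r \ D ⊆ P ∨ Metric.ball z r \ D ⊆ Pᶜ ∨ ∃ (S S' : Set ℂ) (ν τ : ℂ), ‖ν‖ = 1 ∧ ‖τ‖ = 1 ∧
      α ≤ ‖ν + τ‖ ∧ α ≤ ‖ν - τ‖ ∧ Cone S ν κ ∧ Cone S' τ κ ∧ D ∩ Metric.ball z r = S ∩ Metric.ball z r ∧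
        (P \ D) ∩ Metric.ball z r = (S' \ D) ∩ Metric.ball z r

lemma inter_mono {A B U V : Set ℂ} (h : A ∩ U = B ∩ U) (hV : V ⊆ U) : A ∩ V = B ∩ V := by
  rw [← Set.inter_eq_right.2 hV, ← Set.inter_assoc, h, Set.inter_assoc]

lemma At.mono {D P : Set ℂ} {α α' κ r r' : ℝ} {z : ℂ} (h : At D P α κ r z) (hα : α' ≤ α)
    (hr : r' ≤ r) : At D P α' κ r' z := fun hn => by
  have hb : Metric.ball z r' ⊆ Metric.ball z r := ball_subset_ball hr
  rcases h (hn.mono (Set.inter_subset_inter_right _ hb)) with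
    h | h | ⟨S, S', ν, τ, e1, e2, e3, e4, c1, c2, e5, e6⟩
  · exact Or.inl ((Set.sdiff_subset_sdiff_left hb).trans h)
  · exact Or.inr (Or.inl ((Set.sdiff_subset_sdiff_left hb).trans h))
  · exact Or.inr (Or.inr ⟨S, S', ν, τ, e1, e2, hα.trans e3, hα.trans e4, c1, c2,
      inter_mono e5 hb, inter_mono e6 hb⟩)

/-- The property `PW` for the centres in `K`. -/
def On (D P K : Set ℂ) : Prop := ∃ α > (0 : ℝ), ∀ κ > (0 : ℝ), ∃ r > (0 : ℝ), ∀ z ∈ K, At D P α κ r z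

lemma pw_of_on {D P : Set ℂ} (hb : Bornology.IsBounded D) (h : ∀ z, ∃ U ∈ 𝓝 z, On D P U) :
    PW D P := by
  obtain ⟨T, hT⟩ := hb.subset_closedBall 0
  have h1 : On D P (closedBall 0 (T + 1)) := by
    refine (isCompact_closedBall (0 : ℂ) (T + 1)).induction_on (p := On D P)
      ⟨1, one_pos, fun _ _ => ⟨1, one_pos, fun _ h => h.elim⟩⟩
      (fun s t hs ⟨α, α0, h⟩ => ⟨α, α0, fun κ hκ => (h κ hκ).imp fun r hr =>
        ⟨hr.1, fun z hz => hr.2 z (hs hz)⟩⟩) ?_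
      fun z _ => (h z).imp fun U hU => ⟨mem_nhdsWithin_of_mem_nhds hU.1, hU.2⟩
    rintro s t ⟨α, α0, h1⟩ ⟨α', α1, h2⟩
    refine ⟨min α α', lt_min α0 α1, fun κ hκ => ?_⟩
    obtain ⟨r, r0, h1⟩ := h1 κ hκ
    obtain ⟨r', r1, h2⟩ := h2 κ hκ
    exact ⟨min r r', lt_min r0 r1, fun z hz => hz.elim
      (fun hz => (h1 z hz).mono (min_le_left _ _) (min_le_left _ _))
      fun hz => (h2 z hz).mono (min_le_right _ _) (min_le_right _ _)⟩
  obtain ⟨α, α0, h1⟩ := h1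
  refine ⟨α, α0, fun κ hκ => ?_⟩
  obtain ⟨r, r0, h1⟩ := h1 κ hκ
  refine ⟨min r 1, lt_min r0 one_pos, fun z hz => (h1 z ?_).mono le_rfl (min_le_left _ _) hz⟩
  obtain ⟨w, h2, h3⟩ := hz
  have h4 := (mem_ball.1 h3).trans_le (min_le_right _ _)
  rw [mem_closedBall]
  linarith [dist_triangle_left z 0 w, mem_closedBall.1 (hT h2)]

/-- A property of a neighbourhood holds on the small balls centred near the point. -/
lemma small {z : ℂ} {p : ℂ → Prop} (h : ∀ᶠ w in 𝓝 z, p w) :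
    ∃ r > (0 : ℝ), ∀ w ∈ Metric.ball z r, ∀ u ∈ Metric.ball w r, p u := by
  obtain ⟨ε, ε0, hε⟩ := nhds_basis_ball.eventually_iff.1 h
  refine ⟨ε / 2, half_pos ε0, fun w hw u hu => hε ?_⟩
  rw [mem_ball] at *
  linarith [dist_triangle u w z]

lemma on_plus {D P : Set ℂ} {z : ℂ} (h : ∀ᶠ w in 𝓝 z, w ∉ D → w ∈ P) : ∃ U ∈ 𝓝 z, On D P U := by
  obtain ⟨r, r0, h⟩ := small h
  exact ⟨_, ball_mem_nhds z r0, 1, one_pos, fun _ _ => ⟨r, r0, fun w hw _ =>
    Or.inl fun u hu => h w hw u hu.1 hu.2⟩⟩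

lemma on_minus {D P : Set ℂ} {z : ℂ} (h : ∀ᶠ w in 𝓝 z, w ∉ D → w ∉ P) : ∃ U ∈ 𝓝 z, On D P U := by
  obtain ⟨r, r0, h⟩ := small h
  exact ⟨_, ball_mem_nhds z r0, 1, one_pos, fun _ _ => ⟨r, r0, fun w hw _ =>
    Or.inr (Or.inl fun u hu => h w hw u hu.1 hu.2)⟩⟩

lemma on_out {D P : Set ℂ} {z : ℂ} (h : ∀ᶠ w in 𝓝 z, w ∉ D) : ∃ U ∈ 𝓝 z, On D P U := by
  obtain ⟨r, r0, h⟩ := small h
  exact ⟨_, ball_mem_nhds z r0, 1, one_pos, fun _ _ => ⟨r, r0, fun w hw ⟨u, hu⟩ =>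
    (h w hw u hu.2 hu.1).elim⟩⟩

lemma on_cross {D P : Set ℂ} {z : ℂ} {F G : ℂ → ℝ} (hF : ContDiffAt ℝ 1 F z)
    (hG : ContDiffAt ℝ 1 G z)
    (hi : ∀ s t : ℝ, s • fderiv ℝ F z + t • fderiv ℝ G z = 0 → s = 0 ∧ t = 0)
    (h : ∀ᶠ w in 𝓝 z, (w ∈ D ↔ 0 < F w) ∧ (w ∉ D → (w ∈ P ↔ 0 < G w))) :
    ∃ U ∈ 𝓝 z, On D P U := by
  have f0 : gr (fderiv ℝ F z) ≠ 0 := fun e => one_ne_zero (hi 1 0 (gr_lin (by simp [e]))).1
  have g0 : gr (fderiv ℝ G z) ≠ 0 := fun e => one_ne_zero (hi 0 1 (gr_lin (by simp [e]))).2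
  have n0 : ‖gr (fderiv ℝ F z)‖⁻¹ ≠ 0 := inv_ne_zero (norm_ne_zero_iff.2 f0)
  have p1 : 0 < ‖nr (fderiv ℝ F z) + nr (fderiv ℝ G z)‖ :=
    norm_pos_iff.2 fun e => n0 (hi _ _ (gr_lin e)).1
  have p2 : 0 < ‖nr (fderiv ℝ F z) - nr (fderiv ℝ G z)‖ :=
    norm_pos_iff.2 fun e => n0 (hi _ (-‖gr (fderiv ℝ G z)‖⁻¹) (gr_lin (by
      rw [neg_smul, ← sub_eq_add_neg]
      exact e))).1
  obtain ⟨α, α0, hα⟩ := exists_between (lt_min p1 p2)
  obtain ⟨a1, a2⟩ := lt_min_iff.1 hα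
  have c1 := ((nr_cont hF f0).add (nr_cont hG g0)).norm.eventually (lt_mem_nhds a1)
  have c2 := ((nr_cont hF f0).sub (nr_cont hG g0)).norm.eventually (lt_mem_nhds a2)
  obtain ⟨U, hU, h1⟩ := cone_loc hF f0
  obtain ⟨U', hU', h2⟩ := cone_loc hG g0
  obtain ⟨r₀, r0, h⟩ := small h
  refine ⟨_, inter_mem (inter_mem c1 c2) (inter_mem (inter_mem hU hU') (ball_mem_nhds z r0)), α, α0,
    fun κ hκ => ?_⟩
  obtain ⟨r₁, r1, h1⟩ := h1 κ hκ
  obtain ⟨r₂, r2, h2⟩ := h2 κ hκ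
  refine ⟨min r₀ (min r₁ r₂), by positivity, fun w ⟨⟨k1, k2⟩, ⟨k3, k4⟩, k5⟩ _ => ?_⟩
  obtain ⟨e1, S, s1, s2⟩ := h1 w k3
  obtain ⟨e2, S', s3, s4⟩ := h2 w k4
  have k : ∀ u ∈ Metric.ball w (min r₀ (min r₁ r₂)), (u ∈ D ↔ u ∈ S) ∧ (u ∉ D → (u ∈ P ↔ u ∈ S')) := by
    intro u hu
    obtain ⟨u0, u1, u2⟩ : u ∈ Metric.ball w r₀ ∧ u ∈ Metric.ball w r₁ ∧ u ∈ Metric.ball w r₂ := by
      simpa only [mem_ball, lt_min_iff] using hu
    have t1 := Set.ext_iff.1 s2 u
    have t2 := Set.ext_iff.1 s4 u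
    simp only [Set.mem_inter_iff, u1, u2, and_true] at t1 t2
    exact ⟨(h w k5 u u0).1.trans t1, fun hn => ((h w k5 u u0).2 hn).trans t2⟩
  refine Or.inr (Or.inr ⟨S, S', _, _, e1, e2, le_of_lt k1, le_of_lt k2, s1, s3, ?_, ?_⟩)
  · ext u
    exact and_congr_left fun hu => (k u hu).1
  · ext u
    exact and_congr_left fun hu => and_congr_left fun hn => (k u hu).2 hn

lemma sign_loc {G : ℂ → ℝ} {z : ℂ} (hG : ContinuousAt G z) (h0 : G z ≠ 0) (D : Set ℂ) :
    (∀ᶠ w in 𝓝 z, w ∉ D → w ∈ {u | 0 < G u}) ∨ ∀ᶠ w in 𝓝 z, w ∉ D → w ∉ {u | 0 < G u} := by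
  rcases h0.lt_or_gt with h | h
  · exact Or.inr ((hG.eventually (gt_mem_nhds h)).mono fun w hw _ => not_lt.2 (le_of_lt hw))
  · exact Or.inl ((hG.eventually (lt_mem_nhds h)).mono fun w hw _ => hw)

end IPw

open IPw

theorem pw_univ (D : Set ℂ) : PW D Set.univ :=
  ⟨1, one_pos, fun _ _ => ⟨1, one_pos, fun _ _ => Or.inl (Set.subset_univ _)⟩⟩

theorem pw_empty (D : Set ℂ) : PW D ∅ :=
  ⟨1, one_pos, fun _ _ => ⟨1, one_pos, fun _ _ => Or.inr (Or.inl fun _ _ h => h)⟩⟩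

theorem bcOf_univ : bcOf Set.univ = fun _ _ => true := by
  funext a x
  simp [bcOf]

theorem bcOf_empty : bcOf ∅ = fun _ _ => false := by
  funext a x
  simp [bcOf]

/-- The free, plus and minus boundary conditions are in the class. -/
theorem StdBC.signBC {b : Option (ℝ → P144.Config)} (h : StdBC b) (D : Set ℂ) : SignBC D b := by
  rcases h with rfl | rfl | rfl
  · exact Or.inl rfl
  · exact Or.inr ⟨_, pw_univ D, by rw [bcOf_univ]⟩
  · exact Or.inr ⟨_, pw_empty D, by rw [bcOf_empty]⟩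

/-- The local criterion: near every boundary point the sign is constant outside `D`, or `D` and
`P` are cut out by two continuously differentiable functions with independent differentials. -/
theorem pw_local {D P : Set ℂ} (hb : Bornology.IsBounded D)
    (h : ∀ z ∈ frontier D, (∀ᶠ w in 𝓝 z, w ∉ D → w ∈ P) ∨ (∀ᶠ w in 𝓝 z, w ∉ D → w ∉ P) ∨
      ∃ F G : ℂ → ℝ, ContDiffAt ℝ 1 F z ∧ ContDiffAt ℝ 1 G z ∧
        (∀ s t : ℝ, s • fderiv ℝ F z + t • fderiv ℝ G z = 0 → s = 0 ∧ t = 0) ∧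
        ∀ᶠ w in 𝓝 z, (w ∈ D ↔ 0 < F w) ∧ (w ∉ D → (w ∈ P ↔ 0 < G w))) : PW D P := by
  refine pw_of_on hb fun z => ?_
  by_cases h1 : z ∈ closure D
  · by_cases h2 : z ∈ interior D
    · exact on_plus (Eventually.mono (mem_interior_iff_mem_nhds.1 h2) fun w hw hn => (hn hw).elim)
    · rcases h z ⟨h1, h2⟩ with h | h | ⟨F, G, hF, hG, hi, h⟩
      · exact on_plus h
      · exact on_minus h
      · exact on_cross hF hG hi h
  · exact on_out (Eventually.mono (isClosed_closure.isOpen_compl.mem_nhds h1)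
      fun w hw hn => hw (subset_closure hn))

/-- A sign that does not change on the boundary, for instance one sign for each component. -/
theorem pw_of_far {D : Set ℂ} {G : ℂ → ℝ} (hb : Bornology.IsBounded D) (hG : Continuous G)
    (h : ∀ z ∈ frontier D, G z ≠ 0) : PW D {z | 0 < G z} :=
  pw_local hb fun z hz => (sign_loc hG.continuousAt (h z hz) D).imp_right Or.inl

/-- A sign that changes along curves crossing the boundary transversally. -/
theorem pw_of_C1 {F G : ℂ → ℝ} (hF : ContDiff ℝ 1 F) (hG : ContDiff ℝ 1 G)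
    (hb : Bornology.IsBounded {z | 0 < F z})
    (h : ∀ z, F z = 0 → G z = 0 → ∀ s t : ℝ, s • fderiv ℝ F z + t • fderiv ℝ G z = 0 →
      s = 0 ∧ t = 0) : PW {z | 0 < F z} {z | 0 < G z} := by
  refine pw_local hb fun z hz => ?_
  by_cases h0 : G z = 0
  · exact Or.inr (Or.inr ⟨F, G, hF.contDiffAt, hG.contDiffAt,
      h z (frontier_lt_subset_eq continuous_const hF.continuous hz).symm h0,
      Eventually.of_forall fun w => ⟨Iff.rfl, fun _ => Iff.rfl⟩⟩)
  · exact (sign_loc hG.continuous.continuousAt h0 _).imp_right Or.inl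

/-- The disc with plus on the upper and minus on the lower half of the boundary. -/
theorem pw_disc : PW (Metric.ball (0 : ℂ) 1) {z | 0 < z.im} := by
  have e : Metric.ball (0 : ℂ) 1 = {z | 0 < 1 - ‖z‖ ^ 2} := by
    ext w
    rw [mem_ball_zero_iff, Set.mem_ofPred_eq, sub_pos, sq_lt_one_iff₀ (norm_nonneg _)]
  rw [e]
  refine pw_of_C1 (G := Complex.im) (contDiff_const.sub (contDiff_id.norm_sq ℝ))
    Complex.imCLM.contDiff (e ▸ isBounded_ball) fun z h1 h2 s t h => ?_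
  have h3 := ((hasFDerivAt_id z).norm_sq.const_sub 1).fderiv
  simp only [id] at h3
  have h4 : fderiv ℝ Complex.im z = Complex.imCLM := Complex.imCLM.fderiv
  rw [h3, h4] at h
  have h5 := congrArg (fun L : ℂ →L[ℝ] ℝ => L 1) h
  have h6 := congrArg (fun L : ℂ →L[ℝ] ℝ => L Complex.I) h
  simp [h2] at h5 h6
  refine ⟨h5.resolve_right fun h7 => ?_, h6⟩
  simp [Complex.sq_norm, Complex.normSq_apply, h2, h7] at h1

/-- A rectangle with the sign changing at one point of the upper and of the lower side. -/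
theorem pw_rect {a b c d t : ℝ} (ha : a < t) (hb : t < b) (hc : c < d) :
    PW {z : ℂ | a < z.re ∧ z.re < b ∧ c < z.im ∧ z.im < d} {z | t < z.re} := by
  have e : {z : ℂ | t < z.re} = {z | 0 < z.re - t} := by simp
  have cG : ContDiff ℝ 1 fun z : ℂ => z.re - t := Complex.reCLM.contDiff.sub contDiff_const
  have dG : ∀ z, fderiv ℝ (fun z : ℂ => z.re - t) z = Complex.reCLM := fun z =>
    (Complex.reCLM.hasFDerivAt.sub_const t).fderiv
  rw [e]
  refine pw_local (((isBounded_Ioo a b).reProdIm (isBounded_Ioo c d)).subset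
      fun z hz => ⟨⟨hz.1, hz.2.1⟩, hz.2.2⟩) fun z hz => ?_
  by_cases h0 : z.re - t = 0
  · have h1 : ∀ᶠ w in 𝓝 z, a < w.re :=
      Complex.continuous_re.continuousAt.eventually (lt_mem_nhds (by linarith))
    have h2 : ∀ᶠ w in 𝓝 z, w.re < b :=
      Complex.continuous_re.continuousAt.eventually (gt_mem_nhds (by linarith))
    refine Or.inr (Or.inr ?_)
    rcases lt_or_ge z.im d with h | h
    · refine ⟨fun z => z.im - c, _, (Complex.imCLM.contDiff.sub contDiff_const).contDiffAt,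
        cG.contDiffAt, fun s s' h3 => ?_, ?_⟩
      · rw [dG, show fderiv ℝ (fun z : ℂ => z.im - c) z = _ from
          (Complex.imCLM.hasFDerivAt.sub_const c).fderiv] at h3
        exact ⟨by simpa using congrArg (fun L : ℂ →L[ℝ] ℝ => L Complex.I) h3,
          by simpa using congrArg (fun L : ℂ →L[ℝ] ℝ => L 1) h3⟩
      · filter_upwards [h1, h2, Complex.continuous_im.continuousAt.eventually (gt_mem_nhds h)]
          with w k1 k2 k3
        exact ⟨by simp [k1, k2, k3], fun _ => Iff.rfl⟩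
    · refine ⟨fun z => d - z.im, _, (contDiff_const.sub Complex.imCLM.contDiff).contDiffAt,
        cG.contDiffAt, fun s s' h3 => ?_, ?_⟩
      · rw [dG, show fderiv ℝ (fun z : ℂ => d - z.im) z = _ from
          (Complex.imCLM.hasFDerivAt.const_sub d).fderiv] at h3
        exact ⟨by simpa using congrArg (fun L : ℂ →L[ℝ] ℝ => L Complex.I) h3,
          by simpa using congrArg (fun L : ℂ →L[ℝ] ℝ => L 1) h3⟩
      · filter_upwards [h1, h2,
          Complex.continuous_im.continuousAt.eventually (lt_mem_nhds (hc.trans_le h))]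
          with w k1 k2 k3
        exact ⟨by simp [k1, k2, k3], fun _ => Iff.rfl⟩
  · exact (sign_loc cG.continuous.continuousAt h0 _).imp_right Or.inl

end Vale.Agent.P144Z
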